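import Vale.Agent.P260.H720.C6
import Vale.Agent.P260.Spec

namespace Vale.Agent.P260

/-- **Block C.** -/
theorem blockC : BlockC := fun q _ G _ hfin h1 h2 => H720.blockC' q G hfin h1 h2

end Vale.Agent.P260
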