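import Vale.Agent.P300.H863.Fox

/-!
# P260, block C, part C2: generators of the group algebra modulo powers of the augmentation ideal
-/

namespace Vale.Agent.P260.H720

open MonoidAlgebra Submodule Vale.Agent.P300.GS

section

variable {k : Type*} [Field k] {G : Type*} [Group G]

/-- Elements dual to a basis of the characters. -/
theorem exists_dual [FiniteDimensional k (Additive G →+ k)] :
    ∃ g : Fin (Module.finrank k (Additive G →+ k)) → G,
      (∀ χ : Additive G →+ k, (∀ i, χ (Additive.ofMul (g i)) = 0) → χ = 0) ∧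
      ∀ i, ∃ χ : Additive G →+ k, ∀ j, χ (Additive.ofMul (g j)) = if i = j then 1 else 0 := by
  classical
  let E := Additive G →+ k
  let ev : G → Module.Dual k E := fun g =>
    { toFun := fun χ => χ (Additive.ofMul g)
      map_add' := fun _ _ => rfl
      map_smul' := fun _ _ => rfl }
  have hspan : span k (Set.range ev) = ⊤ := by
    by_contra hne
    obtain ⟨f, hf0, hf⟩ := Submodule.exists_le_ker_of_lt_top _ (lt_top_iff_ne_top.mpr hne)
    -- f is evaluation at some χ
    let χ : E := (Module.evalEquiv k E).symm f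
    have hχ : ∀ φ : Module.Dual k E, f φ = φ χ := fun φ => by
      have h1 : f = Module.evalEquiv k E χ := by simp [χ]
      rw [h1]
      simp
    have h0 : χ = 0 := by
      ext x
      have h2 : ev (Additive.toMul x) ∈ LinearMap.ker f :=
        hf (subset_span (Set.mem_range_self (f := ev) (Additive.toMul x)))
      rw [LinearMap.mem_ker, hχ] at h2
      exact h2
    apply hf0
    ext φ
    rw [hχ, h0, map_zero, LinearMap.zero_apply]
  obtain ⟨f, hf1, hf2, hf3⟩ := exists_fun_fin_finrank_span_eq k (Set.range ev)
  have hd : Module.finrank k (span k (Set.range ev)) = Module.finrank k E := by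
    rw [hspan, finrank_top, Subspace.dual_finrank_eq]
  choose g0 hg0 using hf1
  let b : Module.Basis (Fin (Module.finrank k (span k (Set.range ev)))) k (Module.Dual k E) :=
    Module.Basis.mk hf3 (by rw [hf2, hspan])
  let e : Fin (Module.finrank k E) ≃ Fin (Module.finrank k (span k (Set.range ev))) :=
    finCongr hd.symm
  refine ⟨fun i => g0 (e i), fun χ hχ => ?_, fun i => ?_⟩
  · ext x
    have h1 : ev (Additive.toMul x) ∈ span k (Set.range f) := by rw [hf2, hspan]; trivial
    have h2 : span k (Set.range f) ≤ LinearMap.ker (Module.Dual.eval k E χ) := by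
      refine span_le.mpr ?_
      rintro _ ⟨j, rfl⟩
      rw [SetLike.mem_coe, LinearMap.mem_ker, Module.Dual.eval_apply, ← hg0 j]
      have h3 := hχ (e.symm j)
      simp only [Equiv.apply_symm_apply] at h3
      exact h3
    have h4 := h2 h1
    rw [LinearMap.mem_ker, Module.Dual.eval_apply] at h4
    exact h4
  · let χ : E := (Module.evalEquiv k E).symm (b.coord (e i))
    refine ⟨χ, fun j => ?_⟩
    have h1 : ev (g0 (e j)) χ = b.coord (e i) (ev (g0 (e j))) := by
      have h1 : b.coord (e i) = Module.evalEquiv k E χ := by simp [χ]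
      rw [h1]
      simp
    have h2 : ev (g0 (e j)) = b (e j) := by
      rw [hg0, Module.Basis.mk_apply]
    have h3 : χ (Additive.ofMul (g0 (e j))) = ev (g0 (e j)) χ := rfl
    rw [h3, h1, h2, Module.Basis.coord_apply, Module.Basis.repr_self, Finsupp.single_apply]
    by_cases hij : i = j
    · rw [if_pos (by rw [hij]), if_pos hij]
    · rw [if_neg (fun h => hij (e.injective h).symm), if_neg hij]

/-- The linear extension of a character. -/
noncomputable def lin (χ : Additive G →+ k) : MonoidAlgebra k G →ₗ[k] k :=
  (MonoidAlgebra.basis G k).constr k fun g => χ (Additive.ofMul g)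

theorem lin_of (χ : Additive G →+ k) (g : G) : lin χ (of k G g) = χ (Additive.ofMul g) := by
  have h : of k G g = MonoidAlgebra.basis G k g := by
    rw [MonoidAlgebra.basis_apply]; rfl
  rw [lin, h, Module.Basis.constr_basis]

theorem lin_mul (χ : Additive G →+ k) (a b : MonoidAlgebra k G) :
    lin χ (a * b) = lin χ a * aug k G b + aug k G a * lin χ b := by
  induction a using MonoidAlgebra.induction_on with
  | of g =>
    induction b using MonoidAlgebra.induction_on with
    | of h =>
      rw [← map_mul, lin_of, lin_of, lin_of, aug_of, aug_of, ofMul_mul, map_add]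
      ring
    | add x y hx hy => rw [mul_add, map_add, map_add, map_add, hx, hy]; ring
    | smul c x hx =>
      rw [mul_smul_comm, map_smul, map_smul, map_smul, hx, smul_eq_mul, smul_eq_mul, smul_eq_mul]
      ring
  | add x y hx hy => rw [add_mul, map_add, map_add, map_add, hx, hy]; ring
  | smul c x hx =>
    rw [smul_mul_assoc, map_smul, map_smul, map_smul, hx, smul_eq_mul, smul_eq_mul, smul_eq_mul]
    ring

theorem augF_succ_induction {n : ℕ} {C : MonoidAlgebra k G → Prop}
    (hmul : ∀ a ∈ augF k G n, ∀ b ∈ augF k G 1, C (a * b))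
    (hadd : ∀ a b, C a → C b → C (a + b)) {r : MonoidAlgebra k G} (hr : r ∈ augF k G (n + 1)) :
    C r := by
  rw [mem_augF, Submodule.pow_succ] at hr
  refine Submodule.mul_induction_on hr (fun a ha b hb => hmul a ha b ?_) hadd
  rw [mem_augF, Submodule.pow_one]
  exact hb

theorem lin_augF_two (χ : Additive G →+ k) {x : MonoidAlgebra k G} (hx : x ∈ augF k G 2) :
    lin χ x = 0 := by
  refine augF_succ_induction (C := fun x => lin χ x = 0) (fun a ha b hb => ?_)
    (fun a b ha hb => ?_) hx
  · rw [lin_mul, mem_augF_one.mp ha, mem_augF_one.mp hb]; ring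
  · rw [map_add, ha, hb, add_zero]

/-- Every element is its augmentation plus a combination of `g - 1`. -/
theorem sub_aug_mem (x : MonoidAlgebra k G) :
    x - algebraMap k _ (aug k G x) ∈ span k (Set.range fun g : G => of k G g - 1) := by
  induction x using MonoidAlgebra.induction_on with
  | of g => rw [aug_of, map_one]; exact subset_span ⟨g, rfl⟩
  | add x y hx hy =>
    rw [map_add, map_add, add_sub_add_comm]
    exact add_mem hx hy
  | smul c x hx =>
    have e : c • x - algebraMap k _ (aug k G (c • x)) =
        c • (x - algebraMap k _ (aug k G x)) := by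
      rw [map_smul, smul_eq_mul, map_mul, smul_sub, Algebra.smul_def c (algebraMap k _ _)]
    rw [e]
    exact smul_mem _ _ hx

/-- If the `g i` detect all characters then the `g i - 1` span `I / I²`. -/
theorem augF_one_le {ι : Type*} (g : ι → G)
    (hg : ∀ χ : Additive G →+ k, (∀ i, χ (Additive.ofMul (g i)) = 0) → χ = 0) :
    augF k G 1 ≤ span k (Set.range fun i => of k G (g i) - 1) ⊔ augF k G 2 := by
  intro x hx
  by_contra hcon
  obtain ⟨l, hlx, hl⟩ := Submodule.exists_le_ker_of_notMem hcon
  let χ : Additive G →+ k :=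
    { toFun := fun g => l (of k G (Additive.toMul g) - 1)
      map_zero' := by rw [toMul_zero, map_one, sub_self, map_zero]
      map_add' := fun a b => by
        rw [toMul_add]
        have e : of k G (Additive.toMul a * Additive.toMul b) - 1 =
            (of k G (Additive.toMul a) - 1) * (of k G (Additive.toMul b) - 1) +
            ((of k G (Additive.toMul a) - 1) + (of k G (Additive.toMul b) - 1)) := by
          rw [map_mul]; noncomm_ring
        rw [e, map_add, map_add]
        have h2 : l ((of k G (Additive.toMul a) - 1) * (of k G (Additive.toMul b) - 1)) = 0 :=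
          hl (mem_sup_right (augF_mul (augF_one_sub _) (augF_one_sub _)))
        rw [h2, zero_add] }
  have hχ : χ = 0 := hg χ fun i => hl (mem_sup_left (subset_span ⟨i, rfl⟩))
  apply hlx
  have h1 := sub_aug_mem x
  rw [mem_augF_one.mp hx, map_zero, sub_zero] at h1
  have h2 : span k (Set.range fun g : G => of k G g - 1) ≤ LinearMap.ker l := by
    refine span_le.mpr ?_
    rintro _ ⟨g, rfl⟩
    exact DFunLike.congr_fun hχ (Additive.ofMul g)
  exact h2 h1

section surj

variable {α : Type*} (φ : FreeGroup α →* G)

theorem Phi_XX (a : α) : mapDomainAlgHom k k φ (XX k a) = of k G (φ (FreeGroup.of a)) - 1 := by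
  rw [XX, map_sub, map_one]
  congr 1
  simp

theorem aug_Phi (r : MonoidAlgebra k (FreeGroup α)) : aug k G (mapDomainAlgHom k k φ r) = aug k (FreeGroup α) r := by
  induction r using MonoidAlgebra.induction_on with
  | of g =>
    have h : mapDomainAlgHom k k φ (of k (FreeGroup α) g) = of k G (φ g) := by simp
    rw [h, aug_of, aug_of]
  | add x y hx hy => rw [map_add, map_add, map_add, hx, hy]
  | smul c x hx => rw [map_smul, map_smul, map_smul, hx]

variable (hg : ∀ χ : Additive G →+ k, (∀ i, χ (Additive.ofMul (φ (FreeGroup.of i))) = 0) → χ = 0)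

include hg

theorem lift_augF (n : ℕ) {y : MonoidAlgebra k G} (hy : y ∈ augF k G n) :
    ∃ x ∈ augF k (FreeGroup α) n, mapDomainAlgHom k k φ x - y ∈ augF k G (n + 1) := by
  have h1 : ∀ y ∈ augF k G 1, ∃ x ∈ augF k (FreeGroup α) 1, mapDomainAlgHom k k φ x - y ∈ augF k G 2 := by
    intro y hy
    obtain ⟨s, hs, t, ht, rfl⟩ := mem_sup.mp (augF_one_le _ hg hy)
    have h2 : ∀ s ∈ span k (Set.range fun i => of k G (φ (FreeGroup.of i)) - 1),
        ∃ x ∈ augF k (FreeGroup α) 1, mapDomainAlgHom k k φ x = s := by
      intro s hs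
      induction hs using span_induction with
      | mem x hx =>
        obtain ⟨i, rfl⟩ := hx
        exact ⟨XX k i, augF_one_sub _, Phi_XX φ i⟩
      | zero => exact ⟨0, zero_mem _, map_zero _⟩
      | add x y _ _ hx hy =>
        obtain ⟨a, ha, rfl⟩ := hx
        obtain ⟨b, hb, rfl⟩ := hy
        exact ⟨a + b, add_mem ha hb, map_add _ _ _⟩
      | smul c x _ hx =>
        obtain ⟨a, ha, rfl⟩ := hx
        exact ⟨c • a, smul_mem _ _ ha, map_smul _ _ _⟩
    obtain ⟨x, hx, rfl⟩ := h2 s hs
    refine ⟨x, hx, ?_⟩
    rw [sub_add_cancel_left]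
    exact neg_mem ht
  induction n generalizing y with
  | zero =>
    refine ⟨algebraMap k _ (aug k G y), by rw [augF_zero]; trivial, ?_⟩
    rw [AlgHom.commutes, mem_augF_one, map_sub, AlgHom.commutes, Algebra.algebraMap_self_apply,
      sub_self]
  | succ n ih =>
    refine augF_succ_induction (C := fun y => ∃ x ∈ augF k (FreeGroup α) (n + 1),
      mapDomainAlgHom k k φ x - y ∈ augF k G (n + 1 + 1)) (fun a ha b hb => ?_) (fun a b ha hb => ?_) hy
    · obtain ⟨a', ha', ha2⟩ := ih ha
      obtain ⟨b', hb', hb2⟩ := h1 b hb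
      refine ⟨a' * b', augF_mul ha' hb', ?_⟩
      have e : mapDomainAlgHom k k φ (a' * b') - a * b = (mapDomainAlgHom k k φ a' - a) * mapDomainAlgHom k k φ b' + a * (mapDomainAlgHom k k φ b' - b) := by
        rw [map_mul]; noncomm_ring
      rw [e]
      refine add_mem (augF_mul ha2 (map_augF φ hb')) ?_
      have := augF_mul ha hb2
      exact this
    · obtain ⟨a', ha', ha2⟩ := ha
      obtain ⟨b', hb', hb2⟩ := hb
      refine ⟨a' + b', add_mem ha' hb', ?_⟩
      rw [map_add, add_sub_add_comm]
      exact add_mem ha2 hb2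

/-- `k[F] → k[G] / I^n` is surjective. -/
theorem hsurj (n : ℕ) (y : MonoidAlgebra k G) :
    ∃ x : MonoidAlgebra k (FreeGroup α), mapDomainAlgHom k k φ x - y ∈ augF k G n := by
  induction n with
  | zero => exact ⟨0, by rw [augF_zero]; trivial⟩
  | succ n ih =>
    obtain ⟨x, hx⟩ := ih
    obtain ⟨z, -, hz⟩ := lift_augF φ hg n hx
    refine ⟨x - z, ?_⟩
    have e : mapDomainAlgHom k k φ (x - z) - y = -(mapDomainAlgHom k k φ z - (mapDomainAlgHom k k φ x - y)) := by
      rw [map_sub]; abel
    rw [e]
    exact neg_mem hz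

omit hg in
/-- Elements mapping into `I²` lie in `I²`. -/
theorem hinj [Fintype α] (hdual : ∀ i, ∃ χ : Additive G →+ k,
      ∀ j, χ (Additive.ofMul (φ (FreeGroup.of j))) = open Classical in if i = j then 1 else 0)
    {x : MonoidAlgebra k (FreeGroup α)} (hx : mapDomainAlgHom k k φ x ∈ augF k G 2) :
    x ∈ augF k (FreeGroup α) 2 := by
  classical
  have h1 : x ∈ augF k (FreeGroup α) (0 + 1) := by
    rw [zero_add, mem_augF_one, ← aug_Phi φ, ← mem_augF_one]
    exact augF_anti (by norm_num) hx
  obtain ⟨a, -, rfl⟩ := augF_dec 0 h1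
  have h2 : ∀ i, aug k _ (a i) = 0 := by
    intro i
    obtain ⟨χ, hχ⟩ := hdual i
    have h3 := lin_augF_two χ hx
    rw [map_sum, map_sum] at h3
    have h4 : ∀ j, lin χ (mapDomainAlgHom k k φ (a j * XX k j)) = if i = j then aug k _ (a j) else 0 := by
      intro j
      rw [map_mul, lin_mul, Phi_XX, map_sub, map_sub, aug_of, map_one, sub_self, mul_zero,
        zero_add, lin_of, hχ, aug_Phi]
      have h5 : lin χ (1 : MonoidAlgebra k G) = 0 := by
        have h6 := lin_of χ (1 : G)
        rw [map_one, ofMul_one, map_zero] at h6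
        exact h6
      rw [h5, sub_zero]
      split_ifs <;> simp
    rw [Finset.sum_congr rfl fun j _ => h4 j] at h3
    simpa using h3
  refine sum_mem fun i _ => ?_
  have h3 : a i ∈ augF k (FreeGroup α) 1 := mem_augF_one.mpr (h2 i)
  exact augF_mul h3 (augF_one_sub _)

end surj

end

end Vale.Agent.P260.H720
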