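import Vale.Agent.P260.H720.C2

/-!
# P260, block C, part C4: the Golod-Shafarevich recursion and the infinite quotient
-/

namespace Vale.Agent.P260.H720

open MonoidAlgebra Submodule Vale.Agent.P300.GS

section growth

variable {k : Type*} [Field k] {α : Type*} [Fintype α] {κ : Type*} [Fintype κ]
  {f : κ → MonoidAlgebra k (FreeGroup α)} {d : κ → ℕ}

/-- The Golod-Shafarevich inequality for relators of degrees two and three. -/
theorem gs23 (hf : ∀ i, f i ∈ augF k (FreeGroup α) (d i)) (hd : ∀ i, d i = 2 ∨ d i = 3)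
    {R2 R3 : ℕ} (h2 : (Finset.univ.filter fun i => d i = 2).card ≤ R2)
    (h3 : (Finset.univ.filter fun i => d i = 3).card ≤ R3) (n : ℕ) :
    Fintype.card α * (foxFil k α).c f n + 1 ≤
      (foxFil k α).c f (n + 1) + R2 * (foxFil k α).c f (n - 1) +
        R3 * (foxFil k α).c f (n - 2) := by
  classical
  have hd1 : ∀ i, 1 ≤ d i := fun i => by rcases hd i with h | h <;> omega
  have h := (foxFil k α).gs_ineq (f := f) (d := d) hf hd1 (fun n => Set.toFinite _) n
  refine h.trans ?_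
  rw [add_assoc]
  refine Nat.add_le_add_left ?_ _
  have e : ∀ i ∈ (Set.toFinite {i | d i ≤ n}).toFinset, (foxFil k α).c f (n + 1 - d i) ≤
      (if d i = 2 then (foxFil k α).c f (n - 1) else 0) +
      (if d i = 3 then (foxFil k α).c f (n - 2) else 0) := by
    intro i hi
    rw [Set.Finite.mem_toFinset, Set.mem_ofPred_eq] at hi
    rcases hd i with h' | h'
    · have e1 : n + 1 - d i = n - 1 := by omega
      rw [e1, if_pos h']
      exact Nat.le_add_right _ _
    · have e1 : n + 1 - d i = n - 2 := by omega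
      rw [e1, if_pos h']
      exact Nat.le_add_left _ _
  refine (Finset.sum_le_sum e).trans ?_
  refine (Finset.sum_le_univ_sum_of_nonneg fun i => Nat.zero_le _).trans ?_
  rw [Finset.sum_add_distrib, ← Finset.sum_filter, ← Finset.sum_filter, Finset.sum_const,
    Finset.sum_const, smul_eq_mul, smul_eq_mul]
  exact Nat.add_le_add (Nat.mul_le_mul_right _ h2) (Nat.mul_le_mul_right _ h3)

theorem growth (hf : ∀ i, f i ∈ augF k (FreeGroup α) (d i)) (hd : ∀ i, d i = 2 ∨ d i = 3)
    {l : ℕ} (hl : 97 ≤ l) (hα : Fintype.card α = 16 * l)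
    (h2 : (Finset.univ.filter fun i => d i = 2).card ≤ 16 * l ^ 2 + 1728 * l + 150)
    (h3 : (Finset.univ.filter fun i => d i = 3).card ≤ 240 * l ^ 3) (n : ℕ) :
    8 * l * (foxFil k α).c f n ≤ (foxFil k α).c f (n + 1) := by
  have key : ∀ n, 8 * l * (foxFil k α).c f (n - 1) ≤ (foxFil k α).c f n ∧
      8 * l * (foxFil k α).c f n ≤ (foxFil k α).c f (n + 1) := by
    intro n
    induction n with
    | zero =>
      rw [Nat.zero_sub, FoxFil.c_zero]
      simp
    | succ n ih =>
      obtain ⟨ih1, ih2⟩ := ih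
      refine ⟨by rw [Nat.add_sub_cancel]; exact ih2, ?_⟩
      have h := gs23 hf hd h2 h3 (n + 1)
      rw [hα, Nat.add_sub_cancel, show n + 1 - 2 = n - 1 from by omega] at h
      set a := (foxFil k α).c f (n - 1)
      set b := (foxFil k α).c f n
      set c := (foxFil k α).c f (n + 1)
      set e := (foxFil k α).c f (n + 1 + 1)
      have h4 : 16 * l ^ 2 + 1728 * l + 150 ≤ 34 * l ^ 2 := by nlinarith
      have h5 : (16 * l ^ 2 + 1728 * l + 150) * b ≤ 34 * l ^ 2 * b := Nat.mul_le_mul_right _ h4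
      have h6 : 240 * l ^ 3 * a ≤ 30 * l ^ 2 * b := by
        calc 240 * l ^ 3 * a = 30 * l ^ 2 * (8 * l * a) := by ring
          _ ≤ 30 * l ^ 2 * b := Nat.mul_le_mul_left _ ih1
      have h7 : 64 * l ^ 2 * b ≤ 8 * l * c := by
        calc 64 * l ^ 2 * b = 8 * l * (8 * l * b) := by ring
          _ ≤ 8 * l * c := Nat.mul_le_mul_left _ ih2
      have h8 : 34 * l ^ 2 * b + 30 * l ^ 2 * b = 64 * l ^ 2 * b := by ring
      have h9 : 16 * l * c = 8 * l * c + 8 * l * c := by ring
      omega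
  exact (key n).2

theorem growth_pow (hf : ∀ i, f i ∈ augF k (FreeGroup α) (d i)) (hd : ∀ i, d i = 2 ∨ d i = 3)
    {l : ℕ} (hl : 97 ≤ l) (hα : Fintype.card α = 16 * l)
    (h2 : (Finset.univ.filter fun i => d i = 2).card ≤ 16 * l ^ 2 + 1728 * l + 150)
    (h3 : (Finset.univ.filter fun i => d i = 3).card ≤ 240 * l ^ 3) (n : ℕ) :
    n + 1 ≤ (foxFil k α).c f (n + 1) := by
  induction n with
  | zero =>
    have h := gs23 hf hd h2 h3 0
    simp only [Nat.zero_sub, FoxFil.c_zero] at h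
    omega
  | succ n ih =>
    have h := growth hf hd hl hα h2 h3 (n + 1)
    have h1 : 2 * (foxFil k α).c f (n + 1) ≤ 8 * l * (foxFil k α).c f (n + 1) :=
      Nat.mul_le_mul_right _ (by omega)
    omega

omit [Fintype α] [Fintype κ] in
theorem J_mono {κ' : Type*} {f' : κ' → MonoidAlgebra k (FreeGroup α)}
    (h : ∀ i, ∃ j, f i = f' j) : FoxFil.J k f ≤ FoxFil.J k f' := by
  refine span_le.mpr ?_
  rintro _ ⟨a, i, b, rfl⟩
  obtain ⟨j, hj⟩ := h i
  rw [hj]
  exact subset_span ⟨a, j, b, rfl⟩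

/-- The infinite quotient. -/
theorem quot_infinite (k : Type*) [Field k] {l : ℕ} (hl : 97 ≤ l)
    (hα : Fintype.card α = 16 * l) (rel : κ → FreeGroup α)
    (hrel : ∀ i, of k _ (rel i) - 1 ∈ augF k (FreeGroup α) (d i)) (hd : ∀ i, d i = 2 ∨ d i = 3)
    (N : Subgroup (FreeGroup α)) (m : ℕ)
    (hr : ∀ n, 2 ≤ n → ∃ r : Fin m → MonoidAlgebra k (FreeGroup α),
      (∀ i, r i ∈ augF k (FreeGroup α) 2) ∧
      ∀ w ∈ N, of k _ w - 1 ∈ FoxFil.J k r ⊔ augF k (FreeGroup α) n)
    (h2 : m + (Finset.univ.filter fun i => d i = 2).card ≤ 16 * l ^ 2 + 1728 * l + 150)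
    (h3 : (Finset.univ.filter fun i => d i = 3).card ≤ 240 * l ^ 3) :
    Infinite (FreeGroup α ⧸ (Subgroup.normalClosure (Set.range rel) ⊔ N)) := by
  by_contra hcon
  rw [not_infinite_iff_finite] at hcon
  set C := Nat.card (FreeGroup α ⧸ (Subgroup.normalClosure (Set.range rel) ⊔ N))
  obtain ⟨r, hr1, hr2⟩ := hr (C + 1 + 1) (by omega)
  let f : Fin m ⊕ κ → MonoidAlgebra k (FreeGroup α) := Sum.elim r fun i => of k _ (rel i) - 1
  let d' : Fin m ⊕ κ → ℕ := Sum.elim (fun _ => 2) d
  have hf : ∀ i, f i ∈ augF k (FreeGroup α) (d' i) := by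
    rintro (i | i)
    · exact hr1 i
    · exact hrel i
  have hd' : ∀ i, d' i = 2 ∨ d' i = 3 := by
    rintro (i | i)
    · exact Or.inl rfl
    · exact hd i
  have h2' : (Finset.univ.filter fun i => d' i = 2).card ≤ 16 * l ^ 2 + 1728 * l + 150 := by
    refine le_trans ?_ h2
    rw [Finset.card_filter, Fintype.sum_sum_type]
    simp only [d', Sum.elim_inl, Sum.elim_inr]
    simp
    exact (Finset.card_filter _ _).ge
  have h3' : (Finset.univ.filter fun i => d' i = 3).card ≤ 240 * l ^ 3 := by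
    refine le_trans ?_ h3
    rw [Finset.card_filter, Fintype.sum_sum_type]
    simp only [d', Sum.elim_inl, Sum.elim_inr]
    simp
    exact (Finset.card_filter _ _).ge
  have h4 := growth_pow hf hd' hl hα h2' h3' (C + 1)
  have h5 : Subgroup.normalClosure (Set.range rel) ⊔ N ≤ cong f (C + 1 + 1) := by
    refine sup_le (Subgroup.normalClosure_le_normal ?_) fun w hw => ?_
    · rintro _ ⟨i, rfl⟩
      exact mem_sup_left (FoxFil.gen_mem (f := f) (Sum.inr i))
    · rw [mem_cong]
      have h6 := hr2 w hw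
      exact sup_le_sup_right (J_mono fun i => ⟨Sum.inl i, rfl⟩) _ h6
  have h6 := card_bound (F := k) (f := f) (n := C + 1 + 1) h5
  omega

end growth

end Vale.Agent.P260.H720
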