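import Vale.Agent.P260.H720.C4
import Vale.Agent.P260.Defs

/-!
# P260, block C: assembly
-/

namespace Vale.Agent.P260.H720

open MonoidAlgebra Submodule Vale.Agent.P300.GS

/-- Statement of part C1. -/
def PartC1 : Prop :=
  ∀ (k : Type) [Field k] (G : Type) [Group G] (α : Type) [Fintype α] (φ : FreeGroup α →* G)
    (n : ℕ), 2 ≤ n →
    (∀ y : MonoidAlgebra k G, ∃ x : MonoidAlgebra k (FreeGroup α),
      mapDomainAlgHom k k φ x - y ∈ augF k G n) →
    (∀ x : MonoidAlgebra k (FreeGroup α), mapDomainAlgHom k k φ x ∈ augF k G 2 →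
      x ∈ augF k (FreeGroup α) 2) →
    FiniteDimensional k (groupCohomology (Rep.trivial k G k) 2) →
    ∃ r : Fin (Module.finrank k (groupCohomology (Rep.trivial k G k) 2)) →
        MonoidAlgebra k (FreeGroup α),
      (∀ i, r i ∈ augF k (FreeGroup α) 2) ∧
      ∀ x, mapDomainAlgHom k k φ x ∈ augF k G n →
        x ∈ FoxFil.J k r ⊔ augF k (FreeGroup α) n

/-- Statement of part C3. -/
def PartC3 : Prop :=
  ∀ (q : ℕ) [Fact q.Prime] (l : ℕ), ∃ (κ : Type) (_ : Fintype κ)
    (rel : κ → FreeGroup (Fin 16 × Fin l)) (d : κ → ℕ),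
    (∀ i, d i = 2 ∨ d i = 3) ∧
    (∀ i, of (ZMod q) _ (rel i) - 1 ∈ augF (ZMod q) (FreeGroup (Fin 16 × Fin l)) (d i)) ∧
    (Finset.univ.filter fun i => d i = 2).card ≤ 16 * l ^ 2 + 1696 * l + 120 ∧
    (Finset.univ.filter fun i => d i = 3).card ≤ 240 * l ^ 3 ∧
    ∀ N : Subgroup (FreeGroup (Fin 16 × Fin l)), ∀ [N.Normal], (∀ i, rel i ∈ N) →
      Nonempty (AngleData q l (FreeGroup (Fin 16 × Fin l) ⧸ N))

section

variable {k : Type*} [Field k] {α β : Type*}

theorem map_J {κ : Type*} (r : κ → MonoidAlgebra k (FreeGroup α)) (π : FreeGroup α →* FreeGroup β)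
    {x : MonoidAlgebra k (FreeGroup α)} (hx : x ∈ FoxFil.J k r) :
    mapDomainAlgHom k k π x ∈ FoxFil.J k fun i => mapDomainAlgHom k k π (r i) := by
  induction hx using span_induction with
  | mem x hx =>
    obtain ⟨a, i, b, rfl⟩ := hx
    rw [map_mul, map_mul]
    exact subset_span ⟨_, i, _, rfl⟩
  | zero => rw [map_zero]; exact zero_mem _
  | add x y _ _ hx hy => rw [map_add]; exact add_mem hx hy
  | smul c x _ hx => rw [map_smul]; exact smul_mem _ _ hx

theorem map_J_sup {κ : Type*} (r : κ → MonoidAlgebra k (FreeGroup α))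
    (π : FreeGroup α →* FreeGroup β) {n : ℕ}
    {x : MonoidAlgebra k (FreeGroup α)} (hx : x ∈ FoxFil.J k r ⊔ augF k (FreeGroup α) n) :
    mapDomainAlgHom k k π x ∈ (FoxFil.J k fun i => mapDomainAlgHom k k π (r i)) ⊔
      augF k (FreeGroup β) n := by
  obtain ⟨a, ha, b, hb, rfl⟩ := mem_sup.mp hx
  rw [map_add]
  exact add_mem (mem_sup_left (map_J r π ha)) (mem_sup_right (map_augF π hb))

end

/-- `h_1` as a space of characters. -/
theorem hd_one (q : ℕ) [Fact q.Prime] (G : Type) [Group G] :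
    hd q G 1 = Module.finrank (ZMod q) (Additive G →+ ZMod q) := by
  have e := (groupCohomology.H1IsoOfIsTrivial (Rep.trivial (ZMod q) G (ZMod q))).toLinearEquiv
  exact e.finrank_eq

theorem blockC_of (C1 : PartC1) (C3 : PartC3) :
    ∀ (q : ℕ) [Fact q.Prime] (G : Type) [Group G], Module.Finite (ZMod q) (HH q G 2) →
    1552 ≤ hd q G 1 → hd q G 2 ≤ 2 * hd q G 1 →
    ∃ (S : Subgroup G) (Q : Type) (_ : Group Q) (f : S →* Q) (l : ℕ),
      Function.Surjective f ∧ Infinite Q ∧ Nonempty (AngleData q l Q) := by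
  intro q _ G _ hfin2 h1 h2
  classical
  have hD := hd_one q G
  have hE : FiniteDimensional (ZMod q) (Additive G →+ ZMod q) :=
    Module.finite_of_finrank_pos (by omega)
  obtain ⟨D, hDdef, g, hg1, hg2⟩ : ∃ D, D = Module.finrank (ZMod q) (Additive G →+ ZMod q) ∧
      ∃ g : Fin D → G,
      (∀ χ : Additive G →+ ZMod q, (∀ i, χ (Additive.ofMul (g i)) = 0) → χ = 0) ∧
      ∀ i, ∃ χ : Additive G →+ ZMod q, ∀ j, χ (Additive.ofMul (g j)) = if i = j then 1 else 0 :=
    ⟨_, rfl, exists_dual⟩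
  rw [← hDdef] at hD
  let φ : FreeGroup (Fin D) →* G := FreeGroup.lift g
  have hφ : ∀ i, φ (FreeGroup.of i) = g i := fun i => FreeGroup.lift_apply_of
  let l := D / 16
  have hl : 97 ≤ l := by simp only [l]; omega
  have hl2 : D ≤ 16 * l + 15 := by simp only [l]; omega
  have hl1 : 16 * l ≤ D := by simp only [l]; omega
  -- the embedding of generators
  let ι : Fin 16 × Fin l → Fin D := fun p => Fin.castLE hl1 (finProdFinEquiv p)
  have hι : Function.Injective ι := (Fin.castLE_injective hl1).comp finProdFinEquiv.injective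
  let ιF : FreeGroup (Fin 16 × Fin l) →* FreeGroup (Fin D) := FreeGroup.map ι
  let π : FreeGroup (Fin D) →* FreeGroup (Fin 16 × Fin l) :=
    FreeGroup.lift fun j => if h : ∃ p, ι p = j then FreeGroup.of h.choose else 1
  have hπ : ∀ w, π (ιF w) = w := by
    intro w
    have h3 : π.comp ιF = MonoidHom.id _ := by
      ext p
      have h4 : ∃ p', ι p' = ι p := ⟨p, rfl⟩
      have h5 : h4.choose = p := hι h4.choose_spec
      simp only [MonoidHom.comp_apply, ιF, π, FreeGroup.map.of, FreeGroup.lift_apply_of,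
        MonoidHom.id_apply]
      rw [dif_pos h4, h5]
    exact DFunLike.congr_fun h3 w
  let φ' : FreeGroup (Fin 16 × Fin l) →* G := φ.comp ιF
  -- the relators coming from H^2
  have hr : ∀ n, 2 ≤ n → ∃ r : Fin (hd q G 2) → MonoidAlgebra (ZMod q) (FreeGroup (Fin 16 × Fin l)),
      (∀ i, r i ∈ augF (ZMod q) (FreeGroup (Fin 16 × Fin l)) 2) ∧
      ∀ w ∈ φ'.ker, of (ZMod q) _ w - 1 ∈ FoxFil.J (ZMod q) r ⊔
        augF (ZMod q) (FreeGroup (Fin 16 × Fin l)) n := by
    intro n hn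
    obtain ⟨r, hr1, hr2⟩ := C1 (ZMod q) G (Fin D) φ n hn
      (hsurj φ (fun χ hχ => hg1 χ fun i => by rw [← hφ]; exact hχ i) n)
      (fun x hx => hinj φ (fun i => by
        obtain ⟨χ, hχ⟩ := hg2 i
        refine ⟨χ, fun j => ?_⟩
        rw [hφ, hχ]
        congr) hx) hfin2
    refine ⟨fun i => mapDomainAlgHom (ZMod q) (ZMod q) π (r i), fun i => map_augF π (hr1 i),
      fun w hw => ?_⟩
    have h3 : mapDomainAlgHom (ZMod q) (ZMod q) φ (of (ZMod q) _ (ιF w) - 1) = 0 := by
      have h4 : φ (ιF w) = 1 := hw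
      rw [map_sub, map_one]
      have h5 : mapDomainAlgHom (ZMod q) (ZMod q) φ (of (ZMod q) _ (ιF w)) =
          of (ZMod q) G (φ (ιF w)) := by simp
      rw [h5, h4, map_one, sub_self]
    have h4 := map_J_sup r π (hr2 (of (ZMod q) _ (ιF w) - 1) (by rw [h3]; exact zero_mem _))
    have h5 : mapDomainAlgHom (ZMod q) (ZMod q) π (of (ZMod q) _ (ιF w) - 1) =
        of (ZMod q) _ w - 1 := by
      rw [map_sub, map_one]
      have h6 : mapDomainAlgHom (ZMod q) (ZMod q) π (of (ZMod q) _ (ιF w)) =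
          of (ZMod q) _ (π (ιF w)) := by simp
      rw [h6, hπ]
    rw [h5] at h4
    exact h4
  obtain ⟨κ, _, rel, d, hd23, hrel, hR2, hR3, hang⟩ := C3 q l
  have hcard : Fintype.card (Fin 16 × Fin l) = 16 * l := by
    rw [Fintype.card_prod, Fintype.card_fin, Fintype.card_fin]
  have hinf := quot_infinite (ZMod q) hl hcard rel hrel hd23 φ'.ker (hd q G 2) hr
    (by omega) hR3
  set N : Subgroup (FreeGroup (Fin 16 × Fin l)) :=
    Subgroup.normalClosure (Set.range rel) ⊔ φ'.ker with hN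
  have hker : φ'.ker ≤ N.comap (MonoidHom.id _) := le_sup_right
  let f : φ'.range →* FreeGroup (Fin 16 × Fin l) ⧸ N :=
    (QuotientGroup.map φ'.ker N (MonoidHom.id _) hker).comp
      (QuotientGroup.quotientKerEquivRange φ').symm.toMonoidHom
  refine ⟨φ'.range, FreeGroup (Fin 16 × Fin l) ⧸ N, inferInstance, f, l, ?_, hinf, ?_⟩
  · intro y
    obtain ⟨w, rfl⟩ := QuotientGroup.mk_surjective y
    refine ⟨QuotientGroup.quotientKerEquivRange φ' (QuotientGroup.mk w), ?_⟩
    show QuotientGroup.map φ'.ker N (MonoidHom.id _) hker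
      ((QuotientGroup.quotientKerEquivRange φ').symm
      (QuotientGroup.quotientKerEquivRange φ' (QuotientGroup.mk w))) = _
    rw [MulEquiv.symm_apply_apply]
    rfl
  · exact hang N fun i => (le_sup_left : _ ≤ N) (Subgroup.subset_normalClosure ⟨i, rfl⟩)

end Vale.Agent.P260.H720
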