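import Vale.Agent.P260.H720.C5
import Vale.Agent.P260.H388.C1
import Vale.Agent.P260.H907.Code
import Vale.Agent.P260.H907.Words

/-!
# P260, block C: the three parts put together
-/

namespace Vale.Agent.P260.H720

open MonoidAlgebra Submodule Vale.Agent.P300.GS

theorem partC1 : PartC1 := by
  intro k _ G _ α _ φ n hn h1 h2 hfin
  obtain ⟨r, -, hr1, hr2⟩ := Vale.Agent.P260.C.relators φ n hn h1 h2
  exact ⟨r, hr1, hr2⟩

theorem partC3 : PartC3 := by
  intro q _ l
  obtain ⟨f, hf⟩ := H907.exists_code q l
  refine ⟨H907.KK l, inferInstance, H907.rel f, H907.deg, ?_, fun i => H907.rel_mem f i, ?_, ?_,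
    fun N _ hN => ⟨H907.angleData f hf (QuotientGroup.mk' N) (QuotientGroup.mk'_surjective N)
      fun k => (QuotientGroup.eq_one_iff _).mpr (hN k)⟩⟩
  · rintro (i | i)
    · exact Or.inl rfl
    · exact Or.inr rfl
  · rw [← H907.card_K2 l]
    refine (Finset.card_le_card (t := Finset.univ.map Function.Embedding.inl) ?_).trans ?_
    · rintro (i | i) hi
      · simp
      · simp at hi
    · rw [Finset.card_map, Finset.card_univ]
  · rw [← H907.card_K3 l]
    refine (Finset.card_le_card (t := Finset.univ.map Function.Embedding.inr) ?_).trans ?_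
    · rintro (i | i) hi
      · simp at hi
      · simp
    · rw [Finset.card_map, Finset.card_univ]

/-- **Block C.** -/
theorem blockC' (q : ℕ) [Fact q.Prime] (G : Type) [Group G]
    (hfin : Module.Finite (ZMod q) (HH q G 2)) (h1 : 1552 ≤ hd q G 1)
    (h2 : hd q G 2 ≤ 2 * hd q G 1) :
    ∃ (S : Subgroup G) (Q : Type) (_ : Group Q) (f : S →* Q) (l : ℕ),
      Function.Surjective f ∧ Infinite Q ∧ Nonempty (AngleData q l Q) :=
  blockC_of partC1 partC3 q G hfin h1 h2

end Vale.Agent.P260.H720
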