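import Vale.Agent.P260.Spec4
import Vale.Agent.P260.Assembly
import Vale.Agent.P260.H720.BlockC
import Vale.Agent.P260.H117.D2

/-!
P260: block G3 (rank bound) from blocks C and D.
-/

namespace Vale.Agent.P260.H720

open Vale.Agent.P260

/-- Homomorphisms to `ℤ/q` are determined by the restriction to a subgroup of index prime to `q`. -/
theorem hom_restrict_injective (q : ℕ) [hq : Fact q.Prime] {L : Type*} [Group L] (K : Subgroup L)
    (hK : ¬ q ∣ K.index) :
    Function.Injective fun f : L →* Multiplicative (ZMod q) => f.comp K.subtype := by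
  intro f g hfg
  have h1 : K ≤ (f / g).ker := by
    intro x hx
    rw [MonoidHom.mem_ker, MonoidHom.div_apply, div_eq_one]
    exact DFunLike.congr_fun hfg ⟨x, hx⟩
  have h2 : Nat.card (f / g).range ∣ q := by
    have := Subgroup.card_subgroup_dvd_card (f / g).range
    rwa [show Nat.card (Multiplicative (ZMod q)) = q from Nat.card_zmod q] at this
  have h3 : Nat.card (f / g).range = 1 := by
    rcases (Nat.dvd_prime hq.out).1 h2 with h | h
    · exact h
    · exfalso
      apply hK
      rw [← h, ← Subgroup.index_ker]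
      exact Subgroup.index_dvd_of_le h1
  have h4 : (f / g).range = ⊥ := Subgroup.card_eq_one.1 h3
  ext x
  have h5 : (f / g) x = 1 := by
    have : (f / g) x ∈ (f / g).range := ⟨x, rfl⟩
    rw [h4] at this
    exact Subgroup.mem_bot.1 this
  rw [MonoidHom.div_apply, div_eq_one] at h5
  exact h5

/-- Block G3 from blocks C and D. -/
theorem blockG3_of (hC : BlockC) (hD : BlockD) : BlockG3 := by
  intro G _ hPD hFol hDeep q hq L hL
  obtain ⟨N, hNn, hNf, hNL, hN⟩ := hDeep q L hL
  let N' : Subgroup L := N.subgroupOf L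
  have hN'n : N'.Normal := inferInstance
  have hN'f : N'.FiniteIndex := inferInstance
  have : Finite (L ⧸ N') := Subgroup.finite_quotient_of_finiteIndex
  obtain ⟨P⟩ : Nonempty (Sylow q (L ⧸ N')) := inferInstance
  let K' : Subgroup L := (P : Subgroup (L ⧸ N')).comap (QuotientGroup.mk' N')
  let K : Subgroup G := K'.map L.subtype
  have hKL : K ≤ L := Subgroup.map_subtype_le K'
  have hKK' : K.subgroupOf L = K' := Subgroup.comap_map_eq_self_of_injective
    L.subtype_injective K'
  have hN'K' : N' ≤ K' := by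
    intro x hx
    rw [Subgroup.mem_comap, QuotientGroup.mk'_apply, (QuotientGroup.eq_one_iff x).2 hx]
    exact one_mem _
  have hNK : N ≤ K := by
    intro x hx
    exact ⟨⟨x, hNL hx⟩, hN'K' (Subgroup.mem_subgroupOf.2 hx), rfl⟩
  have hidx : ¬ q ∣ K'.index := by
    rw [Subgroup.index_comap_of_surjective _ (QuotientGroup.mk'_surjective N')]
    exact P.not_dvd_index
  have hKf : K.FiniteIndex := Subgroup.finiteIndex_of_le hNK
  have hrel : QPow q (N.relIndex K) := by
    obtain ⟨k, hk⟩ := IsPGroup.iff_card.1 P.isPGroup'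
    refine ⟨k, ?_⟩
    rw [← Subgroup.relIndex_subgroupOf hKL, hKK']
    have h1 : N.subgroupOf L = (⊥ : Subgroup (L ⧸ N')).comap (QuotientGroup.mk' N') := by
      rw [MonoidHom.comap_bot, QuotientGroup.ker_mk']
    rw [h1, Subgroup.relIndex_comap, Subgroup.map_comap_eq_self_of_surjective
      (QuotientGroup.mk'_surjective N'), Subgroup.relIndex_bot_left, ← hk]
  have hfin := hPD.fin4 q K hKf
  have h2 : hd q K 2 + 2 ≤ 2 * hd q K 1 := by
    refine hN K hNK hrel K K le_rfl le_rfl ?_ ⟨0, ?_⟩
    · rw [Subgroup.subgroupOf_self]; infer_instance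
    · rw [Subgroup.relIndex_self, pow_zero]
  have hbd : hd q K 1 ≤ 1551 := by
    by_contra hcon
    obtain ⟨S, Q, _, f, l, hf, hinf, ⟨hang⟩⟩ := hC q K (hfin.fin 2 (by norm_num))
      (by omega) (by omega)
    have := hD q l K S Q f hf (hFol.subgroup K) hang
    exact not_finite Q
  have hcard := card_hom q K (hfin.fin 1 (by norm_num))
  have : Finite (K →* Multiplicative (ZMod q)) := by
    apply Nat.finite_of_card_ne_zero
    rw [hcard]
    exact pow_ne_zero _ hq.out.ne_zero
  have hinj : Function.Injective fun f : L →* Multiplicative (ZMod q) =>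
      f.comp (Subgroup.inclusion hKL) := by
    intro f g hfg
    apply hom_restrict_injective q K' hidx
    ext x
    have := DFunLike.congr_fun hfg ⟨(x : L), ⟨x, x.2, rfl⟩⟩
    exact this
  calc Nat.card (L →* Multiplicative (ZMod q)) ≤ Nat.card (K →* Multiplicative (ZMod q)) :=
        Nat.card_le_card_of_injective _ hinj
    _ = q ^ hd q K 1 := hcard
    _ ≤ q ^ 1551 := by
        obtain ⟨r, hr⟩ : ∃ r : ℕ, r = 1551 := ⟨_, rfl⟩
        rw [← hr] at hbd ⊢
        exact Nat.pow_le_pow_right hq.out.pos hbd

end Vale.Agent.P260.H720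

/-- Block G3. -/
theorem Vale.Agent.P260.blockG3 : Vale.Agent.P260.BlockG3 :=
  Vale.Agent.P260.H720.blockG3_of Vale.Agent.P260.blockC
    (fun q _ l G _ S Q _ f => Vale.Agent.P260.H117.blockD_lit q l G S Q f)
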